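import Vale.Agent.P038.H560.Sim

/-!
# P038 (H560): the pairing principle (helper631) and helper610's Theorem A
-/

namespace Vale.Agent.P038.H560

open Finset Vale.Agent.P038.H139

variable {V : Type*} [Fintype V]

open Classical in
/-- `N₁(X)`. -/
noncomputable def L1 (D : OGraph V) (X : Finset V) : Finset V := cl D X \ X

open Classical in
/-- `N₂(X)`. -/
noncomputable def L2 (D : OGraph V) (X : Finset V) : Finset V := cl D (cl D X) \ cl D X

/-- `h(X) = w(N₁(X)) - w(N₂(X))`. -/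
noncomputable def hh (D : OGraph V) (w : V → ℝ) (X : Finset V) : ℝ :=
  W w (L1 D X) - W w (L2 D X)

theorem mem_L1 {D : OGraph V} {X : Finset V} {y : V} :
    y ∈ L1 D X ↔ y ∈ cl D X ∧ y ∉ X := by
  classical
  unfold L1
  rw [Finset.mem_sdiff]

theorem mem_L2 {D : OGraph V} {X : Finset V} {y : V} :
    y ∈ L2 D X ↔ y ∈ cl D (cl D X) ∧ y ∉ cl D X := by
  classical
  unfold L2
  rw [Finset.mem_sdiff]

theorem sum_swap_le {w : V → ℝ} (hw : ∀ v, 0 ≤ w v) (A B : V → Finset V)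
    (h : ∀ z y, y ∈ A z → z ∈ B y) :
    ∑ z, w z * W w (A z) ≤ ∑ y, w y * W w (B y) := by
  classical
  have h1 : ∀ z, w z * W w (A z) = ∑ y, if y ∈ A z then w z * w y else 0 := by
    intro z
    unfold W
    rw [Finset.mul_sum, ← Finset.sum_filter]
    congr 1
    ext y
    simp
  have h2 : ∀ y, w y * W w (B y) = ∑ z, if z ∈ B y then w z * w y else 0 := by
    intro y
    unfold W
    rw [Finset.mul_sum, ← Finset.sum_filter]
    refine Finset.sum_congr ?_ fun z _ => mul_comm _ _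
    ext z
    simp
  simp only [h1, h2]
  rw [Finset.sum_comm]
  refine Finset.sum_le_sum fun y _ => Finset.sum_le_sum fun z _ => ?_
  by_cases hy : y ∈ A z
  · rw [if_pos hy, if_pos (h z y hy)]
  · rw [if_neg hy]
    split_ifs
    · exact mul_nonneg (hw z) (hw y)
    · exact le_refl _

/-- The pairing principle. -/
theorem pairing {D : OGraph V} {w : V → ℝ} (hw : ∀ v, 0 ≤ w v) (X Y : V → Finset V)
    (h1 : ∀ z y, y ∈ L1 D (X z) → z ∈ L2 D (Y y))
    (h2 : ∀ z y, z ∈ L1 D (Y y) → y ∈ L2 D (X z)) :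
    ∑ z, w z * (hh D w (X z) + hh D w (Y z)) ≤ 0 := by
  have e1 := sum_swap_le hw (fun z => L1 D (X z)) (fun y => L2 D (Y y)) h1
  have e2 := sum_swap_le hw (fun z => L1 D (Y z)) (fun y => L2 D (X y)) (fun z y h => h2 y z h)
  have e3 : ∑ z, w z * (hh D w (X z) + hh D w (Y z)) =
      (∑ z, w z * W w (L1 D (X z)) - ∑ z, w z * W w (L2 D (Y z))) +
      (∑ z, w z * W w (L1 D (Y z)) - ∑ z, w z * W w (L2 D (X z))) := by
    rw [← Finset.sum_sub_distrib, ← Finset.sum_sub_distrib, ← Finset.sum_add_distrib]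
    refine Finset.sum_congr rfl fun z _ => ?_
    unfold hh
    ring
  rw [e3]
  linarith

theorem cl_eq_of_L1 {D : OGraph V} {X : Finset V} (h : L1 D X = ∅) : cl D X = X := by
  classical
  refine Finset.Subset.antisymm (fun y hy => ?_) (subset_cl D X)
  by_contra hy'
  have h1 : y ∈ L1 D X := mem_L1.2 ⟨hy, hy'⟩
  rw [h] at h1
  exact absurd h1 (Finset.notMem_empty y)

theorem hh_of_L1 {D : OGraph V} {w : V → ℝ} {X : Finset V} (h : L1 D X = ∅) :
    hh D w X = 0 := by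
  have h1 := cl_eq_of_L1 h
  have h2 : L2 D X = ∅ := by
    rw [Finset.eq_empty_iff_forall_notMem]
    intro y hy
    obtain ⟨h3, h4⟩ := mem_L2.1 hy
    rw [h1] at h3
    exact h4 h3
  unfold hh W
  rw [h, h2]
  simp

/-- The strict form of (G). -/
def GStrict (D : OGraph V) (w : V → ℝ) : Prop :=
  ∀ X : Finset V, (L1 D X).Nonempty → 0 < hh D w X

/-- A pairing contradicts (G). -/
theorem no_pairing {D : OGraph V} {w : V → ℝ} (hw : ∀ v, 0 < w v) (hG : GStrict D w)
    (X Y : V → Finset V)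
    (h1 : ∀ z y, y ∈ L1 D (X z) → z ∈ L2 D (Y y))
    (h2 : ∀ z y, z ∈ L1 D (Y y) → y ∈ L2 D (X z)) (z0 : V) (hz0 : (L1 D (X z0)).Nonempty) :
    False := by
  have e1 := pairing (fun v => (hw v).le) X Y h1 h2
  have hnn : ∀ X, 0 ≤ hh D w X := by
    intro X
    rcases Finset.eq_empty_or_nonempty (L1 D X) with h | h
    · rw [hh_of_L1 h]
    · exact (hG X h).le
  have e2 : 0 < ∑ z, w z * (hh D w (X z) + hh D w (Y z)) := by
    refine Finset.sum_pos' (fun z _ => mul_nonneg (hw z).le (add_nonneg (hnn _) (hnn _)))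
      ⟨z0, Finset.mem_univ _, mul_pos (hw z0) ?_⟩
    have := hG (X z0) hz0
    have := hnn (Y z0)
    linarith
  linarith

/-- `y` is far from `B[X]`: no vertex of `X` sees `y` within two steps. -/
def FarFrom (D : OGraph V) (X : Finset V) (y : V) : Prop := ∀ x ∈ X, ¬ Near D x y

open Classical in
/-- The antitone map `Φ`. -/
noncomputable def Phi (D : OGraph V) (X : V → Finset V) (z : V) : Finset V :=
  Finset.univ.filter fun y => y = z ∨ FarFrom D (X y) z

theorem mem_Phi {D : OGraph V} {X : V → Finset V} {z y : V} :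
    y ∈ Phi D X z ↔ y = z ∨ FarFrom D (X y) z := by
  classical
  simp [Phi]

theorem mem_cl' {D : OGraph V} {X : Finset V} {y : V} :
    y ∈ cl D X ↔ ∃ x ∈ X, Nb D x y := by
  rw [mem_cl]
  constructor
  · rintro (h | ⟨x, h, h1⟩)
    · exact ⟨y, h, Or.inl rfl⟩
    · exact ⟨x, h, Or.inr h1⟩
  · rintro ⟨x, h, rfl | h1⟩
    · exact Or.inl h
    · exact Or.inr ⟨x, h, h1⟩

theorem mem_cl2 {D : OGraph V} {X : Finset V} {y : V} :
    y ∈ cl D (cl D X) ↔ ∃ x ∈ X, Near D x y := by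
  rw [mem_cl']
  constructor
  · rintro ⟨m, hm, h⟩
    obtain ⟨x, hx, h1⟩ := mem_cl'.1 hm
    exact ⟨x, hx, near_of_nb h1 h⟩
  · rintro ⟨x, hx, rfl | h | ⟨m, h1, h2⟩⟩
    · exact ⟨x, mem_cl'.2 ⟨x, hx, Or.inl rfl⟩, Or.inl rfl⟩
    · exact ⟨x, mem_cl'.2 ⟨x, hx, Or.inl rfl⟩, Or.inr h⟩
    · exact ⟨m, mem_cl'.2 ⟨x, hx, Or.inr h1⟩, Or.inr h2⟩

theorem farFrom_iff {D : OGraph V} {X : Finset V} {y : V} :
    FarFrom D X y ↔ y ∉ cl D (cl D X) := by
  rw [mem_cl2]
  constructor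
  · rintro h ⟨x, hx, h1⟩
    exact h x hx h1
  · intro h x hx h1
    exact h ⟨x, hx, h1⟩

/-- **helper610's Theorem A.** A family `X` with (Far), (Mono), (Clo) and its image under `Φ` form
a pairing; so (G) fails. -/
theorem theoremA {D : OGraph V} {w : V → ℝ} (hw : ∀ v, 0 < w v) (hG : GStrict D w)
    (X : V → Finset V) (hself : ∀ z, z ∈ X z) (hfar : ∀ z, ∀ x ∈ X z, Near D x z → x = z)
    (hmono : ∀ r y, D.arc r y → X y ⊆ cl D (X r))
    (hclo : ∀ z, Phi D (Phi D X) z ⊆ X z)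
    (hstr : ∀ Z : Finset V, Z.Nonempty → Z ≠ Finset.univ → (L1 D Z).Nonempty)
    (r0 z0 : V) (hz0 : D.arc r0 z0) : False := by
  classical
  -- (I)
  have hI : ∀ z y, y ∈ L1 D (Phi D X z) → z ∈ L2 D (X y) := by
    intro z y hy
    obtain ⟨h1, h2⟩ := mem_L1.1 hy
    have h3 : y ≠ z ∧ ¬ FarFrom D (X y) z := by
      constructor
      · intro h; exact h2 (mem_Phi.2 (Or.inl h))
      · intro h; exact h2 (mem_Phi.2 (Or.inr h))
    obtain ⟨r, hr, hry⟩ := mem_cl'.1 h1
    have hry' : D.arc r y := by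
      rcases hry with rfl | h
      · exact absurd hr h2
      · exact h
    rw [mem_L2]
    refine ⟨by_contra fun h => h3.2 (farFrom_iff.2 h), fun h4 => ?_⟩
    rcases mem_Phi.1 hr with h5 | h5
    · -- r = z
      subst h5
      obtain ⟨x, hx, hxr⟩ := mem_cl'.1 h4
      have h6 := hfar y x hx (near_of_nb hxr (Or.inr hry'))
      subst h6
      rcases hxr with h7 | h7
      · exact h3.1 h7
      · exact D.asymm _ _ h7 hry'
    · obtain ⟨x, hx, hxz⟩ := mem_cl'.1 h4
      obtain ⟨x', hx', hx'x⟩ := mem_cl'.1 (hmono r y hry' hx)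
      exact h5 x' hx' (near_of_nb hx'x hxz)
  -- (II)
  have hII : ∀ z y, y ∈ L1 D (X z) → z ∈ L2 D (Phi D X y) := by
    intro z y hy
    obtain ⟨h1, h2⟩ := mem_L1.1 hy
    obtain ⟨r, hr, hry⟩ := mem_cl'.1 h1
    have hry' : D.arc r y := by
      rcases hry with rfl | h
      · exact absurd hr h2
      · exact h
    have h3 : ¬ FarFrom D (Phi D X y) z := fun h => h2 (hclo z (mem_Phi.2 (Or.inr h)))
    rw [mem_L2]
    refine ⟨by_contra fun h => h3 (farFrom_iff.2 h), fun h4 => ?_⟩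
    obtain ⟨r', hr', hr'z⟩ := mem_cl'.1 h4
    rcases mem_Phi.1 hr' with h5 | h5
    · -- r' = y
      subst h5
      rcases hr'z with h6 | h6
      · subst h6; exact h2 (hself _)
      · have h7 := hfar z r hr (near_of_nb (Or.inr hry') (Or.inr h6))
        subst h7
        exact D.asymm _ _ hry' h6
    · rcases hr'z with h6 | h6
      · -- z ∈ Y y : X z misses P(y), but r is near y
        subst h6
        exact h5 r hr (near_of_nb (Or.inr hry') (Or.inl rfl))
      · obtain ⟨x', hx', hx'r⟩ := mem_cl'.1 (hmono r' z h6 hr)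
        exact h5 x' hx' (near_of_nb hx'r (Or.inr hry'))
  refine no_pairing hw hG X (Phi D X) hII (fun z y h => hI y z h) z0
    (hstr _ ⟨z0, hself z0⟩ fun h => ?_)
  have h1 : r0 ∈ X z0 := by rw [h]; exact Finset.mem_univ _
  have h2 := hfar z0 r0 h1 (Or.inr (Or.inl hz0))
  subst h2
  exact D.loopless _ hz0

end Vale.Agent.P038.H560
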