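import Vale.Agent.P038.H560.Ext
import Vale.Agent.P038.H560.Pair

/-!
# P038 (H560): a vertex-minimal counterexample is strongly connected; strict (G)
-/

namespace Vale.Agent.P038.H560

open Finset Vale.Agent.P038.H139

universe u

variable {V : Type u} [Fintype V]

/-- No proper nonempty set is closed. -/
theorem strong {lam : ℝ} (IH : Ind lam V) (D : OGraph V) (w : V → ℝ) (hw : ∀ v, 0 ≤ w v)
    (hF : ∀ v, 0 < Fw lam D w v) (X : Finset V) (hX : X.Nonempty) (hX' : X ≠ Finset.univ) :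
    (L1 D X).Nonempty := by
  classical
  rw [Finset.nonempty_iff_ne_empty]
  intro hL
  have hcl : ∀ a ∈ X, ∀ b, D.arc a b → b ∈ X := by
    intro a ha b hab
    have h1 : b ∈ cl D X := mem_cl'.2 ⟨a, ha, Or.inr hab⟩
    rwa [cl_eq_of_L1 hL] at h1
  have : Nonempty {v // v ∈ X} := by
    obtain ⟨v, hv⟩ := hX
    exact ⟨⟨v, hv⟩⟩
  obtain ⟨v0, hv0⟩ : ∃ v, v ∉ X := by
    by_contra h
    push Not at h
    exact hX' (Finset.eq_univ_iff_forall.2 h)
  have hcard : Fintype.card {v // v ∈ X} < Fintype.card V :=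
    Fintype.card_subtype_lt (x := v0) hv0
  set D' : OGraph {v // v ∈ X} :=
    { arc := fun a b => D.arc a.1 b.1
      loopless := fun a => D.loopless a.1
      asymm := fun a b => D.asymm a.1 b.1 } with hD'
  obtain ⟨v, hv⟩ := IH {v // v ∈ X} hcard D' (fun v => w v.1) (fun v => hw v.1)
  have h1 : W (fun v : {v // v ∈ X} => w v.1) (N1 D' v) = W w (N1 D v.1) := by
    have e : W (fun v : {v // v ∈ X} => w v.1) (N1 D' v) =
        ∑ z ∈ (N1 D' v).map (Function.Embedding.subtype _), w z := by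
      rw [Finset.sum_map]; rfl
    rw [e]
    refine Finset.sum_congr ?_ fun _ _ => rfl
    ext z
    constructor
    · intro hz
      obtain ⟨z', hz', rfl⟩ := Finset.mem_map.1 hz
      have h1 : D'.arc v z' := mem_N1.1 hz'
      exact mem_N1.2 h1
    · intro hz
      have h1 : D.arc v.1 z := mem_N1.1 hz
      have h2 : z ∈ X := hcl v.1 v.2 z h1
      exact Finset.mem_map.2 ⟨⟨z, h2⟩, mem_N1.2 h1, rfl⟩
  have h2 : W (fun v : {v // v ∈ X} => w v.1) (N2 D' v) ≤ W w (N2 D v.1) := by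
    have e : W (fun v : {v // v ∈ X} => w v.1) (N2 D' v) =
        ∑ z ∈ (N2 D' v).map (Function.Embedding.subtype _), w z := by
      rw [Finset.sum_map]; rfl
    rw [e]
    refine Finset.sum_le_sum_of_subset_of_nonneg ?_ fun z _ _ => hw z
    intro z hz
    obtain ⟨z', hz', rfl⟩ := Finset.mem_map.1 hz
    obtain ⟨h3, h4, m, h5, h6⟩ := mem_N2.1 hz'
    exact mem_N2.2 ⟨fun h => h3 (Subtype.ext h), h4, m.1, h5, h6⟩
  have h3 := hF v.1
  unfold Fw at h3 hv
  rw [h1] at hv
  linarith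

end Vale.Agent.P038.H560
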