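import Vale.Agent.P038.H139.Steps

/-!
# P038 (H560): solid sets and the rewiring of all rows (helper502's theorem RW*)
-/

namespace Vale.Agent.P038.H560

open Finset Vale.Agent.P038.H139

variable {V : Type*} [Fintype V]

/-- `f(O) = (1 + lam) w(O) - w(N⁺[O])`. -/
noncomputable def ff (lam : ℝ) (D : OGraph V) (w : V → ℝ) (O : Finset V) : ℝ :=
  (1 + lam) * W w O - W w (cl D O)

theorem cl_mono {D : OGraph V} {A B : Finset V} (h : A ⊆ B) : cl D A ⊆ cl D B := by
  intro z hz
  rw [mem_cl] at hz ⊢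
  rcases hz with h1 | ⟨y, hy, hyz⟩
  · exact Or.inl (h h1)
  · exact Or.inr ⟨y, h hy, hyz⟩

theorem subset_cl (D : OGraph V) (A : Finset V) : A ⊆ cl D A := by
  intro z hz
  rw [mem_cl]
  exact Or.inl hz

theorem cl_union [DecidableEq V] (D : OGraph V) (A B : Finset V) :
    cl D (A ∪ B) = cl D A ∪ cl D B := by
  ext z
  simp only [mem_cl, Finset.mem_union]
  constructor
  · rintro ((h | h) | ⟨y, h | h, hy⟩)
    · exact Or.inl (Or.inl h)
    · exact Or.inr (Or.inl h)
    · exact Or.inl (Or.inr ⟨y, h, hy⟩)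
    · exact Or.inr (Or.inr ⟨y, h, hy⟩)
  · rintro ((h | ⟨y, h, hy⟩) | (h | ⟨y, h, hy⟩))
    · exact Or.inl (Or.inl h)
    · exact Or.inr ⟨y, Or.inl h, hy⟩
    · exact Or.inl (Or.inr h)
    · exact Or.inr ⟨y, Or.inr h, hy⟩

theorem W_union_inter [DecidableEq V] (w : V → ℝ) (A B : Finset V) :
    W w (A ∪ B) + W w (A ∩ B) = W w A + W w B :=
  Finset.sum_union_inter

/-- `f` is supermodular. -/
theorem ff_super [DecidableEq V] {lam : ℝ} {D : OGraph V} {w : V → ℝ} (hw : ∀ v, 0 ≤ w v)
    (A B : Finset V) :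
    ff lam D w A + ff lam D w B ≤ ff lam D w (A ∪ B) + ff lam D w (A ∩ B) := by
  have h1 := W_union_inter w A B
  have h2 := W_union_inter w (cl D A) (cl D B)
  have h3 : cl D (A ∩ B) ⊆ cl D A ∩ cl D B := Finset.subset_inter
    (cl_mono Finset.inter_subset_left) (cl_mono Finset.inter_subset_right)
  have h4 := W_mono hw h3
  unfold ff
  rw [cl_union]
  have h5 : (1 + lam) * W w (A ∪ B) + (1 + lam) * W w (A ∩ B) =
      (1 + lam) * W w A + (1 + lam) * W w B := by rw [← mul_add, ← mul_add, h1]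
  linarith

/-- A set which maximises `f` over its subsets. -/
def Solid (lam : ℝ) (D : OGraph V) (w : V → ℝ) (A : Finset V) : Prop :=
  ∀ O ⊆ A, ff lam D w O ≤ ff lam D w A

theorem Solid.union [DecidableEq V] {lam : ℝ} {D : OGraph V} {w : V → ℝ} (hw : ∀ v, 0 ≤ w v)
    {A B : Finset V} (hA : Solid lam D w A) (hB : Solid lam D w B) :
    Solid lam D w (A ∪ B) := by
  intro O hO
  have h1 := ff_super (lam := lam) (D := D) hw O A
  have h2 := hA (O ∩ A) Finset.inter_subset_right
  have h3 := ff_super (lam := lam) (D := D) hw (O ∪ A) B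
  have h4 := hB ((O ∪ A) ∩ B) Finset.inter_subset_right
  have h5 : (O ∪ A) ∪ B = A ∪ B := by
    rw [Finset.union_assoc]
    exact Finset.union_eq_right.2 hO
  rw [h5] at h3
  linarith

theorem cl_singleton [DecidableEq V] (D : OGraph V) (v : V) :
    cl D {v} = insert v (N1 D v) := by
  ext z
  rw [mem_cl, Finset.mem_insert, mem_N1]
  simp

theorem ff_N1_sub {lam : ℝ} {D : OGraph V} {w : V → ℝ} (h : Opt lam D w) (v : V)
    {O : Finset V} (hO : O ⊆ N1 D v) : ff lam D w O ≤ 1 :=
  step4 h v O fun _ hy => inR_of_arc (mem_N1.1 (hO hy))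

theorem ff_N1 {lam : ℝ} {D : OGraph V} {w : V → ℝ} (h : Opt lam D w) (v : V) :
    ff lam D w (N1 D v) = 1 := f_row h v

/-- `f(N⁺[v]) = 1 + lam w(v)`. -/
theorem ff_cl_singleton [DecidableEq V] {lam : ℝ} {D : OGraph V} {w : V → ℝ}
    (h : Opt lam D w) (v : V) : ff lam D w (cl D {v}) = 1 + lam * w v := by
  have h1 := ff_N1 h v
  have hv : v ∉ N1 D v := fun hv => D.loopless v (mem_N1.1 hv)
  have hv2 : v ∉ cl D (N1 D v) := by
    intro hv2
    rw [mem_cl] at hv2
    rcases hv2 with h3 | ⟨y, hy, hyv⟩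
    · exact hv h3
    · exact D.asymm _ _ (mem_N1.1 hy) hyv
  have h2 : cl D (cl D {v}) = insert v (cl D (N1 D v)) := by
    rw [cl_singleton]
    ext z
    simp only [mem_cl, Finset.mem_insert, mem_N1]
    constructor
    · rintro ((h | h) | ⟨y, rfl | h, hy⟩)
      · exact Or.inl h
      · exact Or.inr (Or.inl h)
      · exact Or.inr (Or.inl hy)
      · exact Or.inr (Or.inr ⟨y, h, hy⟩)
    · rintro (h | h | ⟨y, h, hy⟩)
      · exact Or.inl (Or.inl h)
      · exact Or.inl (Or.inr h)
      · exact Or.inr ⟨y, Or.inr h, hy⟩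
  unfold ff at h1 ⊢
  rw [h2, cl_singleton]
  unfold W at h1 ⊢
  rw [Finset.sum_insert hv, Finset.sum_insert hv2]
  linarith

theorem solid_cl_singleton [DecidableEq V] {lam : ℝ} {D : OGraph V} {w : V → ℝ}
    (h : Opt lam D w) (v : V) : Solid lam D w (cl D {v}) := by
  intro O hO
  have h1 := ff_cl_singleton h v
  have h2 := mul_nonneg h.lam_nonneg (h.nonneg v)
  rw [cl_singleton] at hO
  by_cases hv : v ∈ O
  · have h3 := ff_super (lam := lam) (D := D) h.nonneg O (N1 D v)
    have h4 : O ∪ N1 D v = cl D {v} := by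
      rw [cl_singleton]
      apply Finset.Subset.antisymm
      · exact Finset.union_subset hO (Finset.subset_insert _ _)
      · intro z hz
        rcases Finset.mem_insert.1 hz with rfl | hz
        · exact Finset.mem_union_left _ hv
        · exact Finset.mem_union_right _ hz
    rw [h4, ff_N1 h v] at h3
    have h5 := ff_N1_sub h v (O := O ∩ N1 D v) Finset.inter_subset_right
    linarith
  · have h3 : O ⊆ N1 D v := by
      intro z hz
      rcases Finset.mem_insert.1 (hO hz) with rfl | hz'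
      · exact absurd hz hv
      · exact hz'
    have h4 := ff_N1_sub h v h3
    linarith

/-- Closed out-neighbourhoods of sets are solid. -/
theorem solid_cl {lam : ℝ} {D : OGraph V} {w : V → ℝ} (h : Opt lam D w) (A : Finset V) :
    Solid lam D w (cl D A) := by
  classical
  induction A using Finset.induction_on with
  | empty =>
    intro O hO
    have h1 : cl D (∅ : Finset V) = ∅ := by
      rw [Finset.eq_empty_iff_forall_notMem]
      intro z hz
      rw [mem_cl] at hz
      simp at hz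
    rw [h1] at hO ⊢
    rw [Finset.subset_empty.1 hO]
  | insert a A _ ih =>
    rw [Finset.insert_eq, cl_union]
    exact (solid_cl_singleton h a).union h.nonneg ih

theorem ff_cl_ge {lam : ℝ} {D : OGraph V} {w : V → ℝ} (h : Opt lam D w) {A : Finset V} {z : V}
    (hz : z ∈ A) : 1 + lam * w z ≤ ff lam D w (cl D A) := by
  classical
  rw [← ff_cl_singleton h z]
  exact solid_cl h A _ (cl_mono (Finset.singleton_subset_iff.2 hz))

theorem ff_cl_ge2 {lam : ℝ} {D : OGraph V} {w : V → ℝ} (h : Opt lam D w) {A : Finset V}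
    {z x : V} (hz : z ∈ A) (hx : x ∈ A) (hne : z ≠ x) :
    1 + lam * w z + lam * w x ≤ ff lam D w (cl D A) := by
  classical
  have h1 := ff_super (lam := lam) (D := D) h.nonneg (cl D {z}) (cl D {x})
  rw [ff_cl_singleton h z, ff_cl_singleton h x] at h1
  have h2 : ff lam D w (cl D {z} ∪ cl D {x}) ≤ ff lam D w (cl D A) :=
    solid_cl h A _ (Finset.union_subset (cl_mono (Finset.singleton_subset_iff.2 hz))
      (cl_mono (Finset.singleton_subset_iff.2 hx)))
  have h3 : ff lam D w (cl D {z} ∩ cl D {x}) ≤ 1 := by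
    by_cases hxz : D.arc z x
    · refine ff_N1_sub h z fun y hy => ?_
      have hy1 := (Finset.mem_inter.1 hy).1
      rw [cl_singleton, Finset.mem_insert] at hy1
      rcases hy1 with rfl | hy1
      · have hy2 := (Finset.mem_inter.1 hy).2
        rw [cl_singleton, Finset.mem_insert] at hy2
        rcases hy2 with h4 | h4
        · exact absurd h4 hne
        · exact absurd (mem_N1.1 h4) (D.asymm _ _ hxz)
      · exact hy1
    · refine ff_N1_sub h x fun y hy => ?_
      have hy1 := (Finset.mem_inter.1 hy).2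
      rw [cl_singleton, Finset.mem_insert] at hy1
      rcases hy1 with rfl | hy1
      · have hy2 := (Finset.mem_inter.1 hy).1
        rw [cl_singleton, Finset.mem_insert] at hy2
        rcases hy2 with h4 | h4
        · exact absurd h4.symm hne
        · exact absurd (mem_N1.1 h4) hxz
      · exact hy1
  linarith

/-- The graph with the rows `N⁺[L z] \ {z}`. -/
def rewAll (D : OGraph V) (L : V → Finset V)
    (hi : ∀ z y, y ∈ cl D (L z) → z ∈ cl D (L y) → y = z) : OGraph V where
  arc z y := y ∈ cl D (L z) ∧ y ≠ z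
  loopless _ h := h.2 rfl
  asymm z y h h' := h.2 (hi z y h.1 h'.1)

/-- The value of the graph `rewAll` at a vertex. -/
theorem Fw_rewAll {lam : ℝ} {D : OGraph V} {w : V → ℝ} (hw : ∀ v, 0 ≤ w v)
    (L : V → Finset V) (hL : ∀ z, z ∈ L z)
    (hi : ∀ z y, y ∈ cl D (L z) → z ∈ cl D (L y) → y = z)
    (hii : ∀ z y, y ∈ cl D (L z) → cl D (L y) ⊆ cl D (cl D (L z))) (z : V) :
    ff lam D w (cl D (L z)) - lam * w z ≤ Fw lam (rewAll D L hi) w z := by
  classical
  set P := cl D (L z) with hP
  have hzP : z ∈ P := subset_cl D _ (hL z)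
  have h1 : N1 (rewAll D L hi) z = P.erase z := by
    ext y
    rw [mem_N1, Finset.mem_erase]
    exact and_comm
  have h2 : N2 (rewAll D L hi) z ⊆ cl D P \ P := by
    intro y hy
    obtain ⟨h3, h4, m, h5, h6⟩ := mem_N2.1 hy
    rw [Finset.mem_sdiff]
    exact ⟨hii z m h5.1 h6.1, fun h7 => h4 ⟨h7, h3⟩⟩
  have h3 := W_mono hw h2
  rw [W_sdiff (subset_cl D P)] at h3
  have h4 : W w (P.erase z) + w z = W w P := Finset.sum_erase_add _ _ hzP
  unfold Fw ff
  rw [h1]
  have h5 : lam * W w (P.erase z) = lam * W w P - lam * w z := by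
    rw [← h4]; ring
  rw [h5]
  linarith

/-- helper502's theorem (RW*): no nontrivial relation satisfies (i) and (ii). -/
theorem rw_star {lam : ℝ} (hlam : 0 < lam) {D : OGraph V} {w : V → ℝ} (h : Opt lam D w)
    (L : V → Finset V) (hL : ∀ z, z ∈ L z)
    (hi : ∀ z y, y ∈ cl D (L z) → z ∈ cl D (L y) → y = z)
    (hii : ∀ z y, y ∈ cl D (L z) → cl D (L y) ⊆ cl D (cl D (L z))) :
    ∀ z x, x ∈ L z → x = z := by
  intro z x hx
  by_contra hne
  refine h.not_lt (D' := rewAll D L hi) (fun v => ?_) z ?_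
  · have h1 := Fw_rewAll (lam := lam) h.nonneg L hL hi hii v
    have h2 := ff_cl_ge h (hL v)
    linarith
  · have h1 := Fw_rewAll (lam := lam) h.nonneg L hL hi hii z
    have h2 := ff_cl_ge2 h (hL z) hx (Ne.symm hne)
    have h3 := mul_pos hlam (h.pos x)
    linarith

end Vale.Agent.P038.H560
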