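import Vale.Agent.P038.H560.Ext
import Vale.Agent.P038.H560.RW

/-!
# P038 (H560): additions of arcs in many rows (helper810, helper824)
-/

namespace Vale.Agent.P038.H560

open Finset Vale.Agent.P038.H139

universe u

variable {V : Type u} [Fintype V]

open Classical in
/-- The rows `N⁺(a) ∪ Y a`. -/
noncomputable def rowU (D : OGraph V) (Y : V → Finset V) (a : V) : Finset V := N1 D a ∪ Y a

theorem mem_rowU {D : OGraph V} {Y : V → Finset V} {a b : V} :
    b ∈ rowU D Y a ↔ D.arc a b ∨ b ∈ Y a := by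
  classical
  unfold rowU
  rw [Finset.mem_union, mem_N1]

/-- The graph with the rows `N⁺(a) ∪ Y a`. -/
def addAll (D : OGraph V) (Y : V → Finset V)
    (hB : ∀ a b, b ∈ rowU D Y a → a ∉ rowU D Y b) : OGraph V where
  arc a b := b ∈ rowU D Y a
  loopless a h := hB a a h h
  asymm a b h h' := hB a b h h'

theorem Fw_addAll {lam : ℝ} {D : OGraph V} {w : V → ℝ} (hw : ∀ v, 0 ≤ w v)
    (Y : V → Finset V) (hB : ∀ a b, b ∈ rowU D Y a → a ∉ rowU D Y b)
    (hA : ∀ a v, v ∈ rowU D Y a → Y v ⊆ cl D (rowU D Y a)) (a : V) :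
    ff lam D w (rowU D Y a) ≤ Fw lam (addAll D Y hB) w a := by
  classical
  set P := rowU D Y a with hP
  have h1 : N1 (addAll D Y hB) a = P := by
    ext y
    rw [mem_N1]
    exact Iff.rfl
  have h2 : N2 (addAll D Y hB) a ⊆ cl D P \ P := by
    intro y hy
    obtain ⟨h3, h4, m, h5, h6⟩ := mem_N2.1 hy
    rw [Finset.mem_sdiff]
    refine ⟨?_, h4⟩
    rcases mem_rowU.1 (show y ∈ rowU D Y m from h6) with h7 | h7
    · rw [mem_cl]; exact Or.inr ⟨m, h5, h7⟩
    · exact hA a m h5 h7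
  have h3 := W_mono hw h2
  rw [W_sdiff (subset_cl D P)] at h3
  unfold Fw ff
  rw [h1]
  linarith

theorem ff_rowU [DecidableEq V] {lam : ℝ} {D : OGraph V} {w : V → ℝ} (h : Opt lam D w)
    (Y : V → Finset V) (a : V) :
    1 + ff lam D w (Y a) ≤ ff lam D w (rowU D Y a) + ff lam D w (N1 D a ∩ Y a) := by
  have h1 := ff_super (lam := lam) (D := D) h.nonneg (N1 D a) (Y a)
  rw [ff_N1 h a] at h1
  have e1 : N1 D a ∪ Y a = rowU D Y a := by
    ext b; rw [mem_rowU, Finset.mem_union, mem_N1]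
  rw [e1] at h1
  exact h1

/-- General simultaneous addition (helper824): all rows stay at least `1`. -/
theorem add_rows {lam : ℝ} {D : OGraph V} {w : V → ℝ} (h : Opt lam D w)
    (Y : V → Finset V) (hB : ∀ a b, b ∈ rowU D Y a → a ∉ rowU D Y b)
    (hA : ∀ a v, v ∈ rowU D Y a → Y v ⊆ cl D (rowU D Y a))
    (hC : ∀ a, ff lam D w (rowU D Y a) ≥ 1) (a : V) :
    Fw lam (addAll D Y hB) w a = 1 ∧ ff lam D w (rowU D Y a) = 1 := by
  have h1 : ∀ v, 1 ≤ Fw lam (addAll D Y hB) w v := fun v =>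
    le_trans (hC v) (Fw_addAll h.nonneg Y hB hA v)
  have h2 := h.opt _ h1 a
  have h3 := Fw_addAll (lam := lam) h.nonneg Y hB hA a
  have h4 := hC a
  exact ⟨h2, by linarith⟩

/-- In the arc-maximal normal form nothing can be added. -/
theorem add_rows_max {lam : ℝ} {D : OGraph V} {w : V → ℝ} (h : OptMax lam D w)
    (Y : V → Finset V) (hB : ∀ a b, b ∈ rowU D Y a → a ∉ rowU D Y b)
    (hA : ∀ a v, v ∈ rowU D Y a → Y v ⊆ cl D (rowU D Y a))
    (hC : ∀ a, ff lam D w (rowU D Y a) ≥ 1) (a b : V) (hb : b ∈ Y a) : D.arc a b := by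
  have h1 : ∀ v, 1 ≤ Fw lam (addAll D Y hB) w v := fun v =>
    le_trans (hC v) (Fw_addAll h.nonneg Y hB hA v)
  exact h.eq_of_sup h1 (fun x y hxy => mem_rowU.2 (Or.inl hxy)) a b (mem_rowU.2 (Or.inr hb))

/-- Lemma 0: `f(N⁺(q) ∪ Z) ≥ f(Z)`. -/
theorem lemma0 [DecidableEq V] {lam : ℝ} {D : OGraph V} {w : V → ℝ} (h : Opt lam D w) (q : V)
    (Z : Finset V) : ff lam D w Z ≤ ff lam D w (N1 D q ∪ Z) := by
  have h1 := ff_super (lam := lam) (D := D) h.nonneg (N1 D q) Z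
  rw [ff_N1 h q] at h1
  have h2 := ff_N1_sub h q (O := N1 D q ∩ Z) Finset.inter_subset_left
  linarith

open Classical in
/-- The family `Y q = Z` for `q ∈ Q`, empty otherwise. -/
noncomputable def fam (Q Z : Finset V) (q : V) : Finset V := if q ∈ Q then Z else ∅

theorem mem_fam {Q Z : Finset V} {q b : V} : b ∈ fam Q Z q ↔ q ∈ Q ∧ b ∈ Z := by
  classical
  unfold fam
  split_ifs with h
  · simp [h]
  · simp [h]

theorem fam_hB {D : OGraph V} {Q Z : Finset V} (hQ : ∀ q ∈ Q, q ∉ cl D Z) :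
    ∀ a b, b ∈ rowU D (fam Q Z) a → a ∉ rowU D (fam Q Z) b := by
  intro a b h1 h2
  rw [mem_rowU, mem_fam] at h1 h2
  rcases h1 with h1 | ⟨h1, h1'⟩
  · rcases h2 with h2 | ⟨h2, h2'⟩
    · exact D.asymm _ _ h1 h2
    · exact hQ b h2 (mem_cl.2 (Or.inr ⟨a, h2', h1⟩))
  · rcases h2 with h2 | ⟨h2, h2'⟩
    · exact hQ a h1 (mem_cl.2 (Or.inr ⟨b, h1', h2⟩))
    · exact hQ a h1 (mem_cl.2 (Or.inl h2'))

theorem fam_hA {D : OGraph V} {Q Z : Finset V}
    (hs : ∀ s, s ∉ Q → ∀ q ∈ Q, D.arc s q → Z ⊆ cl D (N1 D s)) :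
    ∀ a v, v ∈ rowU D (fam Q Z) a → fam Q Z v ⊆ cl D (rowU D (fam Q Z) a) := by
  intro a v h1 z hz
  obtain ⟨hv, hz⟩ := mem_fam.1 hz
  by_cases ha : a ∈ Q
  · exact mem_cl.2 (Or.inl (mem_rowU.2 (Or.inr (mem_fam.2 ⟨ha, hz⟩))))
  · have h2 : D.arc a v := by
      rcases mem_rowU.1 h1 with h2 | h2
      · exact h2
      · exact absurd (mem_fam.1 h2).1 ha
    have h3 := hs a ha v hv h2 hz
    refine cl_mono ?_ h3
    intro y hy
    exact mem_rowU.2 (Or.inl (mem_N1.1 hy))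

/-- **(ADD)** (helper810): if `f(Z) > 1` and `Q` is a nonempty set outside `N⁺[Z]`, then some
`s ∉ Q` with an arc into `Q` does not see all of `Z` within two steps. -/
theorem add_principle {lam : ℝ} {D : OGraph V} {w : V → ℝ} (h : Opt lam D w)
    (Q Z : Finset V) (hZ : 1 < ff lam D w Z) (hne : Q.Nonempty) (hQ : ∀ q ∈ Q, q ∉ cl D Z) :
    ∃ s, s ∉ Q ∧ (∃ q ∈ Q, D.arc s q) ∧ ¬ Z ⊆ cl D (N1 D s) := by
  classical
  by_contra hcon
  push Not at hcon
  have hs : ∀ s, s ∉ Q → ∀ q ∈ Q, D.arc s q → Z ⊆ cl D (N1 D s) :=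
    fun s hs q hq hsq => hcon s hs ⟨q, hq, hsq⟩
  have hrow : ∀ q ∈ Q, rowU D (fam Q Z) q = N1 D q ∪ Z := by
    intro q hq
    ext b
    rw [mem_rowU, Finset.mem_union, mem_N1, mem_fam]
    simp [hq]
  have hrow' : ∀ q, q ∉ Q → rowU D (fam Q Z) q = N1 D q := by
    intro q hq
    ext b
    rw [mem_rowU, mem_N1, mem_fam]
    simp [hq]
  have hC : ∀ a, ff lam D w (rowU D (fam Q Z) a) ≥ 1 := by
    intro a
    by_cases ha : a ∈ Q
    · rw [hrow a ha]
      exact le_trans hZ.le (lemma0 h a Z)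
    · rw [hrow' a ha, ff_N1 h a]
  obtain ⟨q, hq⟩ := hne
  have h1 := (add_rows h (fam Q Z) (fam_hB hQ) (fam_hA hs) hC q).2
  rw [hrow q hq] at h1
  have h2 := lemma0 h q Z
  linarith

/-- The equality case of (ADD) in the arc-maximal normal form. -/
theorem add_principle_eq {lam : ℝ} {D : OGraph V} {w : V → ℝ} (h : OptMax lam D w)
    (Q Z : Finset V) (hZ : 1 ≤ ff lam D w Z) (hQ : ∀ q ∈ Q, q ∉ cl D Z)
    (hs : ∀ s, s ∉ Q → ∀ q ∈ Q, D.arc s q → Z ⊆ cl D (N1 D s)) :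
    ∀ q ∈ Q, Z ⊆ N1 D q := by
  classical
  have hC : ∀ a, ff lam D w (rowU D (fam Q Z) a) ≥ 1 := by
    intro a
    by_cases ha : a ∈ Q
    · have hrow : rowU D (fam Q Z) a = N1 D a ∪ Z := by
        ext b
        rw [mem_rowU, Finset.mem_union, mem_N1, mem_fam]
        simp [ha]
      rw [hrow]
      exact le_trans hZ (lemma0 h.toOpt a Z)
    · have hrow : rowU D (fam Q Z) a = N1 D a := by
        ext b
        rw [mem_rowU, mem_N1, mem_fam]
        simp [ha]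
      rw [hrow, ff_N1 h.toOpt a]
  intro q hq z hz
  exact mem_N1.2 (add_rows_max h (fam Q Z) (fam_hB hQ) (fam_hA hs) hC q z
    (mem_fam.2 ⟨hq, hz⟩))

/-- The graph with the new arc `q → x` and the row `Y` of `x`. -/
def addRow (D : OGraph V) (q x : V) (Y : Finset V) (hqx : q ≠ x) (hx : ¬ D.arc x q)
    (hxY : x ∉ Y) (hqY : q ∉ Y) (hY : ∀ y ∈ Y, ¬ D.arc y x) : OGraph V where
  arc a b := (a = x ∧ b ∈ Y) ∨ (a ≠ x ∧ (D.arc a b ∨ (a = q ∧ b = x)))
  loopless := by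
    rintro v (⟨rfl, h⟩ | ⟨_, h | ⟨h1, h2⟩⟩)
    · exact hxY h
    · exact D.loopless v h
    · exact hqx (h1.symm.trans h2)
  asymm := by
    rintro a b (⟨rfl, h⟩ | ⟨h0, h⟩) (⟨h1, h2⟩ | ⟨h1, h2⟩)
    · subst h1; exact hxY h
    · rcases h2 with h2 | ⟨h2, _⟩
      · exact hY b h h2
      · subst h2; exact hqY h
    · subst h1
      rcases h with h | ⟨h, _⟩
      · exact hY a h2 h
      · subst h; exact hqY h2
    · rcases h with h | ⟨h, h'⟩
      · rcases h2 with h2 | ⟨h2, h2'⟩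
        · exact D.asymm a b h h2
        · exact h0 h2'
      · exact h1 h'

/-- **(A)** (helper810): if `x` is an admissible addition for `q`, then `f(Y) < 1` for every
`Y ⊆ R(x) ∩ B(q)`. -/
theorem rowA {lam : ℝ} (hlam : 0 < lam) {D : OGraph V} {w : V → ℝ} (h : Opt lam D w)
    {q x : V} (hx : InR D q x) (hqx : ¬ D.arc q x) (Y : Finset V) (hY : ∀ y ∈ Y, InR D x y)
    (hYq : Y ⊆ cl D (N1 D q)) : ff lam D w Y < 1 := by
  classical
  by_contra hcon
  push Not at hcon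
  have hne : q ≠ x := fun e => hx.1 e.symm
  have hxY : x ∉ Y := fun h' => (hY x h').1 rfl
  have hqY : q ∉ Y := by
    intro h'
    have h1 := hYq h'
    rw [mem_cl] at h1
    rcases h1 with h1 | ⟨y, h1, h2⟩
    · exact D.loopless q (mem_N1.1 h1)
    · exact D.asymm _ _ (mem_N1.1 h1) h2
  have hYx : ∀ y ∈ Y, ¬ D.arc y x := fun y hy => (hY y hy).2.1
  set D' := addRow D q x Y hne hx.2.1 hxY hqY hYx with hD'
  -- row x
  have hFx : ff lam D w Y ≤ Fw lam D' w x := by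
    have h1 : N1 D' x = Y := by
      ext b
      rw [mem_N1]
      constructor
      · rintro (⟨_, h1⟩ | ⟨h1, _⟩)
        · exact h1
        · exact absurd rfl h1
      · intro h1; exact Or.inl ⟨rfl, h1⟩
    have h2 : N2 D' x ⊆ cl D Y \ Y := by
      intro y hy
      obtain ⟨h3, h4, m, h5, h6⟩ := mem_N2.1 hy
      have h7 : m ∈ Y := by
        rcases h5 with ⟨_, h7⟩ | ⟨h7, _⟩
        · exact h7
        · exact absurd rfl h7
      rw [Finset.mem_sdiff]
      refine ⟨?_, fun h8 => h4 (Or.inl ⟨rfl, h8⟩)⟩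
      rcases h6 with ⟨h8, _⟩ | ⟨_, h8 | ⟨h8, _⟩⟩
      · subst h8; exact absurd h7 hxY
      · rw [mem_cl]; exact Or.inr ⟨m, h7, h8⟩
      · subst h8; exact absurd h7 hqY
    have h3 := W_mono h.nonneg h2
    rw [W_sdiff (subset_cl D Y)] at h3
    unfold Fw ff
    rw [h1]
    linarith
  -- row q
  have hFq : 1 < Fw lam D' w q := by
    have h1 : N1 D' q = insert x (N1 D q) := by
      ext b
      rw [mem_N1, Finset.mem_insert, mem_N1]
      constructor
      · rintro (⟨h1, _⟩ | ⟨_, h1 | ⟨_, h1⟩⟩)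
        · exact absurd h1 hne
        · exact Or.inr h1
        · exact Or.inl h1
      · rintro (h1 | h1)
        · exact Or.inr ⟨hne, Or.inr ⟨rfl, h1⟩⟩
        · exact Or.inr ⟨hne, Or.inl h1⟩
    have h2 : N2 D' q ⊆ N2 D q := by
      intro y hy
      obtain ⟨h3, h4, m, h5, h6⟩ := mem_N2.1 hy
      have h4' : ¬ D.arc q y := fun h7 => h4 (Or.inr ⟨hne, Or.inl h7⟩)
      have h4'' : y ≠ x := fun h7 => h4 (Or.inr ⟨hne, Or.inr ⟨rfl, h7⟩⟩)
      have key : y ∈ cl D (N1 D q) := by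
        rcases h6 with ⟨h8, h9⟩ | ⟨h8, h9 | ⟨h9, h10⟩⟩
        · exact hYq h9
        · rcases h5 with ⟨h10, _⟩ | ⟨_, h10 | ⟨_, h10⟩⟩
          · exact absurd h10 hne
          · rw [mem_cl]; exact Or.inr ⟨m, mem_N1.2 h10, h9⟩
          · exact absurd h10 h8
        · exact absurd h10 h4''
      rw [mem_cl] at key
      rcases key with h7 | ⟨m', h7, h8⟩
      · exact absurd (mem_N1.1 h7) h4'
      · exact mem_N2.2 ⟨h3, h4', m', mem_N1.1 h7, h8⟩
    have h3 := W_mono h.nonneg h2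
    have h4 := h.one q
    have h5 : W w (insert x (N1 D q)) = w x + W w (N1 D q) :=
      Finset.sum_insert fun h6 => hqx (mem_N1.1 h6)
    unfold Fw at h4 ⊢
    rw [h1, h5, mul_add]
    have h6 := mul_pos hlam (h.pos x)
    linarith
  refine h.not_lt (D' := D') (fun a => ?_) q hFq
  by_cases hax : a = x
  · subst hax
    exact le_trans hcon hFx
  by_cases haq : a = q
  · subst haq
    exact hFq.le
  have h1 : N1 D' a = N1 D a := by
    ext b
    rw [mem_N1, mem_N1]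
    constructor
    · rintro (⟨h1, _⟩ | ⟨_, h1 | ⟨h1, _⟩⟩)
      · exact absurd h1 hax
      · exact h1
      · exact absurd h1 haq
    · intro h1; exact Or.inr ⟨hax, Or.inl h1⟩
  have h2 : N2 D' a ⊆ N2 D a := by
    intro y hy
    obtain ⟨h3, h4, m, h5, h6⟩ := mem_N2.1 hy
    have h4' : ¬ D.arc a y := fun h7 => h4 (Or.inr ⟨hax, Or.inl h7⟩)
    have h5' : D.arc a m := by
      have : m ∈ N1 D' a := mem_N1.2 h5
      rw [h1] at this
      exact mem_N1.1 this
    have key : Bd D a y := by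
      rcases h6 with ⟨h8, h9⟩ | ⟨h8, h9 | ⟨h9, h10⟩⟩
      · subst h8
        exact (hY y h9).2.2 a h5'
      · exact Or.inr (mem_N2.2 ⟨h3, h4', m, h5', h9⟩)
      · subst h9; subst h10
        exact hx.2.2 a h5'
    rcases key with h7 | h7
    · exact absurd (mem_N1.1 h7) h4'
    · exact h7
  have h3 := W_mono h.nonneg h2
  have h4 := h.one a
  unfold Fw at h4 ⊢
  rw [h1]
  linarith

/-- `f(N⁺(x) ∪ N⁺(q)) > 1` for an admissible addition `x` of `q`. -/
theorem rowA_union [DecidableEq V] {lam : ℝ} (hlam : 0 < lam) {D : OGraph V} {w : V → ℝ}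
    (h : Opt lam D w) {q x : V} (hx : InR D q x) (hqx : ¬ D.arc q x) :
    1 < ff lam D w (N1 D x ∪ N1 D q) := by
  have h1 := rowA hlam h hx hqx (N1 D x ∩ N1 D q)
    (fun y hy => inR_of_arc (mem_N1.1 (Finset.mem_inter.1 hy).1))
    (fun y hy => subset_cl D _ (Finset.mem_inter.1 hy).2)
  have h2 := ff_super (lam := lam) (D := D) h.nonneg (N1 D x) (N1 D q)
  rw [ff_N1 h x, ff_N1 h q] at h2
  linarith

/-- There is no admissible addition `x` of `q` with `N⁻(q) ⊆ N⁻(x)`. -/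
theorem no_strong_nest {lam : ℝ} (hlam : 0 < lam) {D : OGraph V} {w : V → ℝ}
    (h : Opt lam D w) {q x : V} (hne : x ≠ q) (hxq : ¬ D.arc x q)
    (hsub : ∀ s, D.arc s q → D.arc s x) : D.arc q x := by
  classical
  by_contra hqx
  have hx : InR D q x := ⟨hne, hxq, fun s hs => Or.inl (mem_N1.2 (hsub s hs))⟩
  have h1 := rowA_union hlam h hx hqx
  have h2 : ff lam D w (N1 D x ∪ N1 D q) ≤ 1 := by
    refine step4 h q _ fun y hy => ?_
    rcases Finset.mem_union.1 hy with h3 | h3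
    · have h3' := mem_N1.1 h3
      refine ⟨?_, fun h4 => D.asymm _ _ h3' (hsub y h4), fun s hs => ?_⟩
      · rintro rfl; exact hxq h3'
      · by_cases h5 : D.arc s y
        · exact Or.inl (mem_N1.2 h5)
        · refine Or.inr (mem_N2.2 ⟨?_, h5, x, hsub s hs, h3'⟩)
          rintro rfl
          exact D.asymm _ _ h3' (hsub _ hs)
    · exact inR_of_arc (mem_N1.1 h3)
  linarith

end Vale.Agent.P038.H560
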