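import Vale.Agent.P038.H139.Ex
import Vale.Agent.P038.H139.Steps

/-!
# P038 (H560): arc-extremal normal forms
-/

namespace Vale.Agent.P038.H560

open Finset Vale.Agent.P038.H139

universe u

variable {V : Type u} [Fintype V]

/-- The number of arcs. -/
noncomputable def nArcs (D : OGraph V) : ℕ := Nat.card {p : V × V // D.arc p.1 p.2}

/-- Every graph with the same values is again optimal. -/
theorem opt_swap {lam : ℝ} (IH : Ind lam V) {D : OGraph V} {w : V → ℝ} (h : Opt lam D w)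
    {D1 : OGraph V} (h1 : ∀ v, Fw lam D1 w v = 1) : Opt lam D1 w where
  lam_nonneg := h.lam_nonneg
  pos := h.pos
  one := h1
  opt := h.opt
  noNest := fun u x hux hq => no_nest h.lam_nonneg IH D1 w (fun v => (h.pos v).le)
    (fun v => by rw [h1 v]; exact one_pos) u x hux hq

/-- The normal form with the fewest arcs. -/
structure OptMin (lam : ℝ) (D : OGraph V) (w : V → ℝ) : Prop extends Opt lam D w where
  few : ∀ D' : OGraph V, (∀ v, Fw lam D' w v = 1) → nArcs D ≤ nArcs D'

/-- The normal form with the most arcs. -/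
structure OptMax (lam : ℝ) (D : OGraph V) (w : V → ℝ) : Prop extends Opt lam D w where
  most : ∀ D' : OGraph V, (∀ v, Fw lam D' w v = 1) → nArcs D' ≤ nArcs D

theorem exists_optMin {lam : ℝ} (h0 : 0 ≤ lam) [Nonempty V] (IH : Ind lam V)
    (D : OGraph V) (w : V → ℝ) (hw : ∀ v, 0 ≤ w v) (hF : ∀ v, 0 < Fw lam D w v) :
    ∃ (D : OGraph V) (w : V → ℝ), OptMin lam D w := by
  obtain ⟨D0, w0, h⟩ := exists_opt h0 IH D w hw hF
  obtain ⟨D1, h1, hmin⟩ := Set.exists_min_image {D : OGraph V | ∀ v, Fw lam D w0 v = 1} nArcs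
    (Set.toFinite _) ⟨D0, h.one⟩
  exact ⟨D1, w0, { toOpt := opt_swap IH h h1, few := fun D' hD' => hmin D' hD' }⟩

theorem exists_optMax {lam : ℝ} (h0 : 0 ≤ lam) [Nonempty V] (IH : Ind lam V)
    (D : OGraph V) (w : V → ℝ) (hw : ∀ v, 0 ≤ w v) (hF : ∀ v, 0 < Fw lam D w v) :
    ∃ (D : OGraph V) (w : V → ℝ), OptMax lam D w := by
  obtain ⟨D0, w0, h⟩ := exists_opt h0 IH D w hw hF
  obtain ⟨D1, h1, hmax⟩ := Set.exists_max_image {D : OGraph V | ∀ v, Fw lam D w0 v = 1} nArcs
    (Set.toFinite _) ⟨D0, h.one⟩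
  exact ⟨D1, w0, { toOpt := opt_swap IH h h1, most := fun D' hD' => hmax D' hD' }⟩

/-- A subgraph with all values at least `1` is the graph itself. -/
theorem OptMin.eq_of_sub {lam : ℝ} {D : OGraph V} {w : V → ℝ} (h : OptMin lam D w)
    {D' : OGraph V} (h1 : ∀ v, 1 ≤ Fw lam D' w v) (hsub : ∀ a b, D'.arc a b → D.arc a b) :
    ∀ a b, D.arc a b → D'.arc a b := by
  have h2 := h.few D' (h.opt D' h1)
  intro a b hab
  by_contra hcon
  have h3 : nArcs D' < nArcs D := by
    unfold nArcs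
    have hle : {p : V × V | D'.arc p.1 p.2} ⊂ {p : V × V | D.arc p.1 p.2} := by
      refine ⟨fun p hp => hsub _ _ hp, fun hh => hcon ?_⟩
      exact hh (show (a, b) ∈ {p : V × V | D.arc p.1 p.2} from hab)
    exact Set.ncard_lt_ncard hle (Set.toFinite _)
  omega

/-- A supergraph with all values at least `1` is the graph itself. -/
theorem OptMax.eq_of_sup {lam : ℝ} {D : OGraph V} {w : V → ℝ} (h : OptMax lam D w)
    {D' : OGraph V} (h1 : ∀ v, 1 ≤ Fw lam D' w v) (hsup : ∀ a b, D.arc a b → D'.arc a b) :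
    ∀ a b, D'.arc a b → D.arc a b := by
  have h2 := h.most D' (h.opt D' h1)
  intro a b hab
  by_contra hcon
  have h3 : nArcs D < nArcs D' := by
    unfold nArcs
    have hle : {p : V × V | D.arc p.1 p.2} ⊂ {p : V × V | D'.arc p.1 p.2} := by
      refine ⟨fun p hp => hsup _ _ hp, fun hh => hcon ?_⟩
      exact hh (show (a, b) ∈ {p : V × V | D'.arc p.1 p.2} from hab)
    exact Set.ncard_lt_ncard hle (Set.toFinite _)
  omega

end Vale.Agent.P038.H560
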