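import Vale.Agent.P038.H560.RW

/-!
# P038 (H560): simulations are trivial (helper334, 168, 322, 773)

`R` is a transitive reflexive relation such that `R z x`, `x ≠ z` implies that `x` is at distance
at least three from `z`. The largest subrelation `L` of `R` with
`r → y ⟹ L_y ⊆ N⁺[L_r]` is the identity.
-/

namespace Vale.Agent.P038.H560

open Finset Vale.Agent.P038.H139

variable {V : Type*} [Fintype V]

/-- `x` sees `z` within two steps (or `x = z`). -/
def Near (D : OGraph V) (x z : V) : Prop :=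
  x = z ∨ D.arc x z ∨ ∃ m, D.arc x m ∧ D.arc m z

/-- `x = y` or `x → y`. -/
def Nb (D : OGraph V) (x y : V) : Prop := x = y ∨ D.arc x y

theorem near_of_nb {D : OGraph V} {x y z : V} (h1 : Nb D x y) (h2 : Nb D y z) : Near D x z := by
  rcases h1 with rfl | h1
  · rcases h2 with rfl | h2
    · exact Or.inl rfl
    · exact Or.inr (Or.inl h2)
  · rcases h2 with rfl | h2
    · exact Or.inr (Or.inl h1)
    · exact Or.inr (Or.inr ⟨y, h1, h2⟩)

/-- The relation `L` is a simulation: `r → y`, `L y x` gives `b` with `b = x` or `b → x` and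
`L r b`. -/
def Mono (D : OGraph V) (L : V → V → Prop) : Prop :=
  ∀ r y x, D.arc r y → L y x → ∃ b, L r b ∧ Nb D b x

/-- A transitive simulation inside the far relation is the identity. -/
theorem trans_sim {lam : ℝ} (hlam : 0 < lam) {D : OGraph V} {w : V → ℝ} (h : Opt lam D w)
    (L : V → V → Prop) (hrefl : ∀ z, L z z) (htrans : ∀ x y z, L x y → L y z → L x z)
    (hfar : ∀ z x, L z x → Near D x z → x = z)
    (hanti : ∀ z x, L z x → L x z → x = z)
    (hmono : Mono D L) : ∀ z x, L z x → x = z := by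
  classical
  -- the rows as finsets
  let R : V → Finset V := fun z => Finset.univ.filter fun x => L z x
  have hR : ∀ z x, x ∈ R z ↔ L z x := fun z x => by simp [R]
  have hcl : ∀ z y, y ∈ cl D (R z) ↔ ∃ b, L z b ∧ Nb D b y := by
    intro z y
    rw [mem_cl]
    constructor
    · rintro (h1 | ⟨b, h1, h2⟩)
      · exact ⟨y, (hR z y).1 h1, Or.inl rfl⟩
      · exact ⟨b, (hR z b).1 h1, Or.inr h2⟩
    · rintro ⟨b, h1, h2 | h2⟩
      · subst h2; exact Or.inl ((hR z b).2 h1)
      · exact Or.inr ⟨b, (hR z b).2 h1, h2⟩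
  -- Mono for `Nb`
  have hmono' : ∀ r y x, Nb D r y → L y x → ∃ b, L r b ∧ Nb D b x := by
    rintro r y x (rfl | h1) h2
    · exact ⟨x, h2, Or.inl rfl⟩
    · exact hmono r y x h1 h2
  intro z x hzx
  refine rw_star hlam h R (fun z => (hR z z).2 (hrefl z)) ?_ ?_ z x ((hR z x).2 hzx)
  · intro z y hy hz
    obtain ⟨b, hzb, hby⟩ := (hcl z y).1 hy
    obtain ⟨c, hyc, hcz⟩ := (hcl y z).1 hz
    -- `b1` near `z` with `L z b1`
    obtain ⟨b1, h1, h2⟩ := hmono' b y c hby hyc
    have h3 := htrans z b b1 hzb h1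
    have h4 := hfar z b1 h3 (near_of_nb h2 hcz)
    rw [h4] at h2
    have h5 : c = z := by
      rcases h2 with h2 | h2
      · exact h2.symm
      · rcases hcz with h6 | h6
        · exact h6
        · exact absurd h6 (D.asymm _ _ h2)
    rw [h5] at hyc
    -- symmetric
    obtain ⟨c1, h6, h7⟩ := hmono' c z b hcz hzb
    have h8 := htrans y c c1 (by rw [h5]; exact hyc) h6
    have h9 := hfar y c1 h8 (near_of_nb h7 hby)
    rw [h9] at h7
    have h10 : b = y := by
      rcases h7 with h7 | h7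
      · exact h7.symm
      · rcases hby with h11 | h11
        · exact h11
        · exact absurd h11 (D.asymm _ _ h7)
    rw [h10] at hzb
    exact hanti z y hzb hyc
  · intro z y hy x hx
    obtain ⟨b, hzb, hby⟩ := (hcl z y).1 hy
    obtain ⟨c, hyc, hcx⟩ := (hcl y x).1 hx
    obtain ⟨b1, h1, h2⟩ := hmono' b y c hby hyc
    have h3 := htrans z b b1 hzb h1
    rw [mem_cl]
    have h4 : c ∈ cl D (R z) := (hcl z c).2 ⟨b1, h3, h2⟩
    rcases hcx with rfl | h5
    · exact Or.inl h4
    · exact Or.inr ⟨c, h4, h5⟩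

/-- The largest simulation inside a relation `Q`. -/
def big (D : OGraph V) (Q : V → V → Prop) (z x : V) : Prop :=
  ∃ L : V → V → Prop, (∀ a b, L a b → Q a b) ∧ Mono D L ∧ L z x

theorem big_mono (D : OGraph V) (Q : V → V → Prop) : Mono D (big D Q) := by
  rintro r y x hry ⟨L, h1, h2, h3⟩
  obtain ⟨b, h4, h5⟩ := h2 r y x hry h3
  exact ⟨b, ⟨L, h1, h2, h4⟩, h5⟩

theorem big_sub (D : OGraph V) (Q : V → V → Prop) {z x : V} (h : big D Q z x) : Q z x := by
  obtain ⟨L, h1, -, h3⟩ := h
  exact h1 z x h3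

/-- The composition of two simulations is a simulation. -/
theorem mono_comp {D : OGraph V} {L : V → V → Prop} (hL : Mono D L) (hrefl : ∀ z, L z z) :
    Mono D (fun x z => ∃ y, L x y ∧ L y z) := by
  rintro r y x hry ⟨m, hym, hmx⟩
  obtain ⟨b, hrb, hbm⟩ := hL r y m hry hym
  rcases hbm with rfl | hbm
  · exact ⟨x, ⟨b, hrb, hmx⟩, Or.inl rfl⟩
  · obtain ⟨c, hbc, hcx⟩ := hL b m x hbm hmx
    exact ⟨c, ⟨b, hrb, hbc⟩, hcx⟩

/-- **The pruning theorem.** `Q` is reflexive, transitive, antisymmetric and far: the largest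
simulation inside `Q` is the identity. -/
theorem big_eq {lam : ℝ} (hlam : 0 < lam) {D : OGraph V} {w : V → ℝ} (h : Opt lam D w)
    (Q : V → V → Prop) (hrefl : ∀ z, Q z z) (htrans : ∀ x y z, Q x y → Q y z → Q x z)
    (hfar : ∀ z x, Q z x → Near D x z → x = z) (hanti : ∀ z x, Q z x → Q x z → x = z) :
    ∀ z x, big D Q z x → x = z := by
  have hr : ∀ z, big D Q z z := fun z =>
    ⟨fun a b => a = b, fun a b hab => hab ▸ hrefl a, fun r y x hry hyx => by
      subst hyx; exact ⟨r, rfl, Or.inr hry⟩, rfl⟩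
  have ht : ∀ x y z, big D Q x y → big D Q y z → big D Q x z := by
    intro x y z h1 h2
    refine ⟨fun x z => ∃ y, big D Q x y ∧ big D Q y z, ?_, mono_comp (big_mono D Q) hr,
      y, h1, h2⟩
    rintro a b ⟨c, hac, hcb⟩
    exact htrans a c b (big_sub D Q hac) (big_sub D Q hcb)
  exact trans_sim hlam h (big D Q) hr ht (fun z x h1 => hfar z x (big_sub D Q h1))
    (fun z x h1 h2 => hanti z x (big_sub D Q h1) (big_sub D Q h2)) (big_mono D Q)

/-- The nested far relation: `x = z`, or everything which sees `z` within two steps sees `x`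
within two steps and `x` does not see `z` within two steps. -/
def Nest (D : OGraph V) (z x : V) : Prop :=
  x = z ∨ (¬ Near D x z ∧ ∀ s, Near D s z → Near D s x)

theorem nest_trans {D : OGraph V} {x y z : V} (h1 : Nest D x y) (h2 : Nest D y z) :
    Nest D x z := by
  rcases h1 with rfl | ⟨h1, h1'⟩
  · exact h2
  · rcases h2 with rfl | ⟨h2, h2'⟩
    · exact Or.inr ⟨h1, h1'⟩
    · exact Or.inr ⟨fun h3 => h2 (h1' z h3), fun s hs => h2' s (h1' s hs)⟩

/-- In the normal form every nested far pair is pruned: the largest simulation inside the nested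
far relation is the identity. -/
theorem nest_big {lam : ℝ} (hlam : 0 < lam) {D : OGraph V} {w : V → ℝ} (h : Opt lam D w) :
    ∀ z x, big D (Nest D) z x → x = z := by
  refine big_eq hlam h (Nest D) (fun z => Or.inl rfl) (fun x y z => nest_trans) ?_ ?_
  · rintro z x (h1 | ⟨h1, -⟩) h2
    · exact h1
    · exact absurd h2 h1
  · rintro z x (h1 | ⟨h1, h1'⟩) h2
    · exact h1
    · rcases h2 with h2 | ⟨h2, h2'⟩
      · exact h2.symm
      · exact absurd (h2' x (Or.inl rfl)) h1

end Vale.Agent.P038.H560
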